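import Vale.Agent.P155Z.Sk
import Vale.Agent.P155.CI.Img
import Vale.Agent.P155.CI.Green

/-!
# P155, gluing: energies, holes, the deterministic properties of the glued carpets
-/

namespace Vale.Agent.P155.Tree.Glue

open MeasureTheory Filter Topology Set TopologicalSpace Metric Vale.Agent.P155
  Vale.Agent.P155.Q1 Vale.Agent.P155.Uq

theorem isTest_zero (U : Set ℂ) : IsTest U fun _ => 0 :=
  ⟨contDiff_const, HasCompactSupport.zero, by
    have : tsupport (fun _ : ℂ => (0 : ℝ)) = ∅ := tsupport_eq_empty_iff.2 rfl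
    rw [this]
    exact empty_subset _⟩

/-- the value of the Dirichlet functional -/
noncomputable def dv (φ v : ℂ → ℝ) : ℝ := 2 * (∫ z, φ z * v z) - ∫ z, ‖fderiv ℝ v z‖ ^ 2

/-- the energy in `[0, ∞]` -/
noncomputable def Gr (U : Set ℂ) (φ : ℂ → ℝ) : ENNReal :=
  ⨆ v : {v // IsTest U v}, ENNReal.ofReal (dv φ v)

theorem green_nonneg (U : Set ℂ) (φ : ℂ → ℝ) : 0 ≤ greenEnergy U φ := by
  unfold greenEnergy
  by_cases h : BddAbove {x | ∃ v, IsTest U v ∧ x = 2 * (∫ z, φ z * v z) -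
      ∫ z, ‖fderiv ℝ v z‖ ^ 2}
  · exact le_csSup h ⟨fun _ => 0, isTest_zero U, by simp⟩
  · rw [Real.sSup_of_not_bddAbove h]

theorem green_eq (U : Set ℂ) (φ : ℂ → ℝ) : greenEnergy U φ = (Gr U φ).toReal := by
  by_cases h : BddAbove {x | ∃ v, IsTest U v ∧ x = 2 * (∫ z, φ z * v z) -
      ∫ z, ‖fderiv ℝ v z‖ ^ 2}
  · have h1 : Gr U φ ≤ ENNReal.ofReal (greenEnergy U φ) :=
      iSup_le fun v => ENNReal.ofReal_le_ofReal (le_csSup h ⟨v.1, v.2, rfl⟩)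
    refine le_antisymm ?_ (ENNReal.toReal_le_of_le_ofReal (green_nonneg U φ) h1)
    refine csSup_le ⟨_, fun _ => 0, isTest_zero U, rfl⟩ ?_
    rintro x ⟨v, hv, rfl⟩
    exact (ENNReal.ofReal_le_iff_le_toReal (ne_top_of_le_ne_top ENNReal.ofReal_ne_top h1)).1
      (le_iSup (fun v : {v // IsTest U v} => ENNReal.ofReal (dv φ v)) ⟨v, hv⟩)
  · have h1 : Gr U φ = ⊤ := by
      by_contra h2
      refine h ⟨(Gr U φ).toReal, ?_⟩
      rintro x ⟨v, hv, rfl⟩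
      exact (ENNReal.ofReal_le_iff_le_toReal h2).1
        (le_iSup (fun v : {v // IsTest U v} => ENNReal.ofReal (dv φ v)) ⟨v, hv⟩)
    rw [h1, ENNReal.toReal_top]
    exact Real.sSup_of_not_bddAbove h

theorem lsc_Gr (Ω : Set ℂ) (φ : ℂ → ℝ) :
    LowerSemicontinuous (fun C : NonemptyCompacts ℂ => Gr (Ω \ (C : Set ℂ)) φ) := by
  intro C y hy
  obtain ⟨⟨v, hv⟩, hyv⟩ := lt_iSup_iff.1 hy
  have hdisj : Disjoint (tsupport v) (C : Set ℂ) :=
    Set.disjoint_left.2 fun z hz hzC => (hv.2.2 hz).2 hzC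
  obtain ⟨c, hc, hcK⟩ := Metric.exists_pos_forall_lt_edist hv.2.1.isCompact
    C.isCompact.isClosed hdisj
  have hc0 : (0 : ℝ) < c := hc
  filter_upwards [Metric.ball_mem_nhds C hc0] with C' hC'
  rw [Metric.mem_ball, Metric.NonemptyCompacts.dist_eq] at hC'
  have hv' : IsTest (Ω \ (C' : Set ℂ)) v := by
    refine ⟨hv.1, hv.2.1, fun z hz => ⟨(hv.2.2 hz).1, fun hzC' => ?_⟩⟩
    obtain ⟨g, hg, hgd⟩ := Metric.exists_dist_lt_of_hausdorffDist_lt hzC' hC'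
      (Metric.hausdorffEDist_ne_top_of_nonempty_of_bounded C'.nonempty C.nonempty
        C'.isCompact.isBounded C.isCompact.isBounded)
    have h3 := hcK _ hz g hg
    rw [edist_dist] at h3
    have h4 : ENNReal.ofReal (dist z g) < ENNReal.ofReal c := by
      rwa [ENNReal.ofReal_lt_ofReal_iff hc0]
    rw [ENNReal.ofReal_coe_nnreal] at h4
    exact absurd h3 (not_lt.2 h4.le)
  exact hyv.trans_le (le_iSup (fun v : {v // IsTest (Ω \ (C' : Set ℂ)) v} =>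
    ENNReal.ofReal (dv φ v)) ⟨v, hv'⟩)

/-- The energy is a measurable function of the carpet. -/
theorem meas_green (Ω : Set ℂ) (φ : ℂ → ℝ) :
    Measurable (fun C : NonemptyCompacts ℂ => greenEnergy (Ω \ (C : Set ℂ)) φ) := by
  simp only [green_eq]
  exact (lsc_Gr Ω φ).measurable.ennreal_toReal

theorem coe_toNC {S : Set ℂ} (h : IsCompact S) (hn : S.Nonempty) : (toNC S : Set ℂ) = S := by
  unfold toNC
  rw [dif_pos ⟨h, hn⟩]
  rfl

theorem integrable_mul {U : Set ℂ} {g φ : ℂ → ℝ} {C : ℝ} (hg : Measurable g)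
    (hC : ∀ z, |g z| ≤ C) (hφ : IsTest U φ) : Integrable fun z => g z * φ z :=
  (hφ.1.continuous.integrable_of_hasCompactSupport hφ.2.1).bdd_mul hg.aestronglyMeasurable
    (Eventually.of_forall hC)

/-- From locally constant increments to the identity for test functions. -/
theorem sign_of {g g' : ℂ → ℝ} {C C' : ℝ} (hg : Measurable g) (hC : ∀ z, |g z| ≤ C)
    (hg' : Measurable g') (hC' : ∀ z, |g' z| ≤ C') {z : ℂ} {r : ℝ} (hr : 0 < r)
    (h : ∀ w ∈ ball z r, ∃ t : ℝ, (t = 1 ∨ t = -1) ∧ ∀ᶠ u in 𝓝 w, g' u - g u = t) :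
    ∃ s : ℝ, (s = 1 ∨ s = -1) ∧ ∀ φ, IsTest (ball z r) φ →
      (∫ w, g' w * φ w) - ∫ w, g w * φ w = s * ∫ w, φ w := by
  obtain ⟨t, ht, ht'⟩ := h z (mem_ball_self hr)
  have h1 : ∀ w ∈ ball z r, g' w - g w = t := fun w hw => by
    rw [← ht'.self_of_nhds]
    refine ((convex_ball z r).isPreconnected.induction₂' (fun x y => g' x - g x = g' y - g y)
      (fun x hx => ?_) (fun _ _ _ _ _ _ a b => a.trans b) hw (mem_ball_self hr))
    obtain ⟨u, -, hu⟩ := h x hx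
    filter_upwards [mem_nhdsWithin_of_mem_nhds hu] with y hy
    rw [hy, hu.self_of_nhds]
    exact ⟨rfl, rfl⟩
  refine ⟨t, ht, fun φ hφ => ?_⟩
  rw [← integral_sub (integrable_mul hg' hC' hφ) (integrable_mul hg hC hφ), ← integral_const_mul]
  refine integral_congr_ae (Eventually.of_forall fun w => ?_)
  by_cases hw : w ∈ ball z r
  · simp only [← h1 w hw]
    ring
  · have : φ w = 0 := image_eq_zero_of_notMem_tsupport fun h2 => hw (hφ.2.2 h2)
    simp [this]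

section holes

variable {Ω : Set ℂ} {K : NonemptyCompacts ℂ} {h : ℂ → ℝ} {z w : ℂ}

theorem open_diff (hΩ : IsOpen Ω) (K : NonemptyCompacts ℂ) : IsOpen (Ω \ (K : Set ℂ)) :=
  hΩ.sdiff K.isCompact.isClosed

theorem hole_open (hΩ : IsOpen Ω) (K : NonemptyCompacts ℂ) (z : ℂ) : IsOpen (NCLE.hole Ω K z) :=
  (open_diff hΩ K).connectedComponentIn

theorem mem_hole (hz : z ∈ Ω \ (K : Set ℂ)) : z ∈ NCLE.hole Ω K z := mem_connectedComponentIn hz

theorem hole_sub (z : ℂ) : NCLE.hole Ω K z ⊆ Ω \ (K : Set ℂ) := connectedComponentIn_subset _ _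

theorem hole_eq (hw : w ∈ NCLE.hole Ω K z) : NCLE.hole Ω K w = NCLE.hole Ω K z :=
  (connectedComponentIn_eq hw).symm

theorem idx_mem (hΩ : IsOpen Ω) (hz : z ∈ Ω \ (K : Set ℂ)) :
    denseSeq ℂ (idx (NCLE.hole Ω K z)) ∈ NCLE.hole Ω K z :=
  Nat.sInf_mem ((denseRange_denseSeq ℂ).exists_mem_open (hole_open hΩ K z) ⟨z, mem_hole hz⟩)

theorem frontier_hole (hΩ : IsOpen Ω) (hK : Carp Ω K) (z : ℂ) :
    frontier (NCLE.hole Ω K z) ⊆ (K : Set ℂ) := by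
  intro p hp
  rw [(hole_open hΩ K z).frontier_eq] at hp
  by_contra hpK
  by_cases hpΩ : p ∈ Ω
  · obtain ⟨u, hu1, hu2⟩ := mem_closure_iff.1 hp.1 _ (hole_open hΩ K p) (mem_hole ⟨hpΩ, hpK⟩)
    exact hp.2 (by rw [← hole_eq hu2, hole_eq hu1]; exact mem_hole ⟨hpΩ, hpK⟩)
  · refine hpK (hK.2.1 ?_)
    rw [hΩ.frontier_eq]
    exact ⟨closure_mono ((hole_sub z).trans sdiff_subset) hp.1, hpΩ⟩

theorem h_eq (hT : Typed Ω K h) (hz : z ∈ Ω \ (K : Set ℂ)) (hw : w ∈ NCLE.hole Ω K z) :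
    h w = h z := by
  refine isPreconnected_connectedComponentIn.induction₂' (fun x y => h x = h y)
    (fun x hx => ?_) (fun _ _ _ _ _ _ a b => a.trans b) hw (mem_hole hz)
  filter_upwards [mem_nhdsWithin_of_mem_nhds (hT.loc x (hole_sub z hx))] with y hy
  exact ⟨hy.symm, hy⟩

theorem ix_eq (hT : Typed Ω K h) (hz : z ∈ Ω \ (K : Set ℂ)) (hw : w ∈ NCLE.hole Ω K z) :
    ix Ω K h w = ix Ω K h z := by
  unfold ix
  rw [hole_eq hw, h_eq hT hz hw]

theorem conf_ix {a b : NonemptyCompacts ℂ → ℕ → ℂ → ℂ} (hΩ : IsOpen Ω) (hR : Rie Ω a b)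
    (hK : Carp Ω K) (h : ℂ → ℝ) (hz : z ∈ Ω \ (K : Set ℂ)) :
    CI.Conf (NCLE.hole Ω K z) DD (a K (ix Ω K h z).1) (b K (ix Ω K h z).1) := by
  have h1 := hR.conf K _ hK (hole_sub z (idx_mem hΩ hz))
  rw [hole_eq (idx_mem hΩ hz)] at h1
  exact h1

end holes

theorem lev_succ {k : ℕ} (hk : k ≠ 0) (b : Bool) : lev (k + 1) b = lev k b + 1 := by
  cases b
  · rfl
  · simp only [lev, if_true]
    omega

/-- the almost sure properties of one copy -/
structure Good (M : Model) (s : M.S) : Prop where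
  mono : ∀ k, (M.G k s : Set ℂ) ⊆ M.G (k + 1) s
  conn : ∀ k, IsConnected (M.G k s : Set ℂ)
  null : ∀ k, volume ((M.G k s : Set ℂ) ∩ DD) = 0
  sign : ∀ k, ∀ z ∈ DD \ (M.G (k + 1) s : Set ℂ), ∃ t : ℝ, (t = 1 ∨ t = -1) ∧
    ∀ᶠ w in 𝓝 z, M.g (k + 1) s w - M.g k s w = t

theorem ae_good (M : Model) : ∀ᵐ s ∂M.QQ, ∀ i, Good M (s i) := by
  have h : ∀ᵐ s ∂M.Q, Good M s := by
    filter_upwards [M.carp.mono, M.carp.conn, M.carp.null, M.sign] with s a b c d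
    exact ⟨fun k => (a k).1, b, c, d⟩
  exact ae_all_iff.2 fun i =>
    (measurePreserving_eval_infinitePi (fun _ : ℕ × Bool => M.Q) i).quasiMeasurePreserving.ae h

theorem Good.sphere {M : Model} {s : M.S} (h : Good M s) (k : ℕ) :
    sphere (0 : ℂ) 1 ⊆ (M.G k s : Set ℂ) := by
  induction k with
  | zero => exact (M.zero s).1.ge
  | succ k ih => exact ih.trans (h.mono k)

section glued

variable {M : Model} {Ω : Set ℂ} {a b : NonemptyCompacts ℂ → ℕ → ℂ → ℂ} {K : NonemptyCompacts ℂ}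
  {h : ℂ → ℝ} {s : M.Cop}

/-- the set underlying the glued carpet -/
def gs (M : Model) (Ω : Set ℂ) (a : NonemptyCompacts ℂ → ℕ → ℂ → ℂ) (K : NonemptyCompacts ℂ)
    (h : ℂ → ℝ) (s : M.Cop) (k : ℕ) : Set ℂ :=
  (K : Set ℂ) ∪ {z | z ∈ Ω \ (K : Set ℂ) ∧ a K (ix Ω K h z).1 z ∈
    (M.G (lev k (ix Ω K h z).2) (s (ix Ω K h z)) : Set ℂ)}

theorem gs_mono (hs : ∀ i, Good M (s i)) {k : ℕ} (hk : k ≠ 0) :
    gs M Ω a K h s k ⊆ gs M Ω a K h s (k + 1) := by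
  rintro z (hz | hz)
  · exact Or.inl hz
  · refine Or.inr ⟨hz.1, ?_⟩
    rw [lev_succ hk]
    exact (hs _).mono _ hz.2

theorem gs_sub (hK : Carp Ω K) (k : ℕ) : gs M Ω a K h s k ⊆ closure Ω := by
  rintro z (hz | hz)
  · exact hK.2.2 hz
  · exact subset_closure hz.1.1

theorem gs_conn (hT : TOPO) (hΩ : Dom Ω) (hR : Rie Ω a b) (hK : Typed Ω K h)
    (hs : ∀ i, Good M (s i)) (k : ℕ) : IsConnected (gs M Ω a K h s k) := by
  obtain ⟨x, hx⟩ := K.nonempty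
  refine ⟨⟨x, Or.inl hx⟩, isPreconnected_of_forall x ?_⟩
  rintro z (hz | hz)
  · exact ⟨K, subset_union_left, hx, hz, hK.carp.1.isPreconnected⟩
  · have hD := hT.2.2 Ω K hΩ.1 hΩ.2.1 hK.carp _ ⟨z, hz.1, rfl⟩
    have hf := (hT.1 _ hD).1
    have hc := CI.isConnected_img (conf_ix hΩ.1 hR hK.carp h hz.1).symm hD.2.1 hf
      ((hs (ix Ω K h z)).conn (lev k (ix Ω K h z).2))
      (M.G (lev k (ix Ω K h z).2) (s (ix Ω K h z))).isCompact.isClosed (by
        rw [frontier_ball _ one_ne_zero]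
        exact ⟨1, by simp, (hs _).sphere _ (by simp)⟩)
    refine ⟨K ∪ _, ?_, Or.inl hx, Or.inr (Or.inl ⟨mem_hole hz.1, hz.2⟩),
      IsPreconnected.union' ?_ hK.carp.1.isPreconnected hc.isPreconnected⟩
    · rintro w (hw | hw | hw)
      · exact Or.inl hw
      · refine Or.inr ⟨hole_sub z hw.1, ?_⟩
        rw [ix_eq hK hz.1 hw.1]
        exact hw.2
      · exact Or.inl (frontier_hole hΩ.1 hK.carp z hw)
    · obtain ⟨p, hp⟩ := hf.nonempty
      exact ⟨p, frontier_hole hΩ.1 hK.carp z hp, Or.inr hp⟩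

theorem gs_null (hΩ : Dom Ω) (hR : Rie Ω a b) (hK : Typed Ω K h) (hs : ∀ i, Good M (s i))
    (k : ℕ) : volume (gs M Ω a K h s k ∩ Ω) = 0 := by
  have h1 : ∀ i : ℕ × Bool, volume {z | z ∈ Ω \ (K : Set ℂ) ∧ ix Ω K h z = i ∧
      a K i.1 z ∈ (M.G (lev k i.2) (s i) : Set ℂ)} = 0 := fun i => by
    rcases eq_empty_or_nonempty {z | z ∈ Ω \ (K : Set ℂ) ∧ ix Ω K h z = i ∧
      a K i.1 z ∈ (M.G (lev k i.2) (s i) : Set ℂ)} with h2 | ⟨z, hz, rfl, -⟩
    · rw [h2, measure_empty]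
    · refine measure_mono_null ?_ (CI.null_image (conf_ix hΩ.1 hR hK.carp h hz).symm
        inter_subset_right ((hs (ix Ω K h z)).null (lev k (ix Ω K h z).2)))
      rintro w ⟨hw, h3, h4⟩
      have hc := conf_ix hΩ.1 hR hK.carp h hw
      rw [h3] at hc
      exact ⟨_, ⟨h4, hc.mf (mem_hole hw)⟩, hc.gf w (mem_hole hw)⟩
  refine measure_mono_null ?_ (measure_union_null hK.null (measure_iUnion_null h1))
  rintro z ⟨hz | hz, hz'⟩
  · exact Or.inl ⟨hz, hz'⟩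
  · exact Or.inr (mem_iUnion.2 ⟨_, hz.1, rfl, hz.2⟩)

theorem glg_zero (z : ℂ) : glg M Ω a K h s 0 z = 0 := if_neg fun h => h.1 rfl

theorem glg_of {k : ℕ} (hk : k ≠ 0) {z : ℂ} (hz : z ∈ Ω \ (K : Set ℂ)) : glg M Ω a K h s k z =
    h z + M.g (lev k (ix Ω K h z).2) (s (ix Ω K h z)) (a K (ix Ω K h z).1 z) := if_pos ⟨hk, hz⟩

theorem glg_bdd (hK : Typed Ω K h) (k : ℕ) (z : ℂ) : |glg M Ω a K h s k z| ≤ k := by
  by_cases hk : k ≠ 0 ∧ z ∈ Ω \ (K : Set ℂ)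
  · rw [glg_of hk.1 hk.2]
    have h1 := M.bdd (lev k (ix Ω K h z).2) (s (ix Ω K h z)) (a K (ix Ω K h z).1 z)
    by_cases h0 : h z = 0
    · have h2 : (ix Ω K h z).2 = false := by simp [ix, h0]
      rw [h0, zero_add]
      exact h1.trans (by rw [h2]; exact le_rfl)
    · have h2 : (ix Ω K h z).2 = true := by simp [ix, h0]
      have h3 : |h z| ≤ 1 := by rcases hK.val z with e | e | e <;> simp [e]
      have h4 : ((lev k (ix Ω K h z).2 : ℕ) : ℝ) = k - 1 := by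
        rw [h2]
        simp only [lev, if_true]
        rw [Nat.cast_pred (Nat.pos_of_ne_zero hk.1)]
      linarith [abs_add_le (h z)
        (M.g (lev k (ix Ω K h z).2) (s (ix Ω K h z)) (a K (ix Ω K h z).1 z))]
  · unfold glg
    rw [if_neg hk, abs_zero]
    exact Nat.cast_nonneg k

theorem glg_sign (hΩ : Dom Ω) (hR : Rie Ω a b) (hK : Typed Ω K h) (hs : ∀ i, Good M (s i))
    (k : ℕ) {z : ℂ} (hz : z ∈ Ω) (hz' : z ∉ gs M Ω a K h s (k + 1)) :
    ∃ t : ℝ, (t = 1 ∨ t = -1) ∧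
      ∀ᶠ u in 𝓝 z, glg M Ω a K h s (k + 1) u - glg M Ω a K h s k u = t := by
  have h1 : z ∈ Ω \ (K : Set ℂ) := ⟨hz, fun h => hz' (Or.inl h)⟩
  have hc := conf_ix hΩ.1 hR hK.carp h h1
  have hn : NCLE.hole Ω K z ∈ 𝓝 z := hc.ho.mem_nhds (mem_hole h1)
  have h2 : ∀ l, lev (k + 1) (ix Ω K h z).2 = l + 1 → ∃ t : ℝ, (t = 1 ∨ t = -1) ∧ ∀ᶠ u in 𝓝 z,
      M.g (l + 1) (s (ix Ω K h z)) (a K (ix Ω K h z).1 u) -
        M.g l (s (ix Ω K h z)) (a K (ix Ω K h z).1 u) = t := fun l hl => by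
    obtain ⟨t, ht, ht'⟩ := (hs (ix Ω K h z)).sign l _ ⟨hc.mf (mem_hole h1),
      fun h3 => hz' (Or.inr ⟨h1, by rw [hl]; exact h3⟩)⟩
    exact ⟨t, ht, (hc.cf.continuousAt hn).eventually ht'⟩
  rcases eq_or_ne k 0 with rfl | hk
  · by_cases h0 : h z = 0
    · have h3 : (ix Ω K h z).2 = false := by simp [ix, h0]
      obtain ⟨t, ht, ht'⟩ := h2 0 (by rw [h3]; rfl)
      refine ⟨t, ht, ?_⟩
      filter_upwards [hn, ht'] with u hu hu'
      rw [glg_zero, glg_of (Nat.add_one_ne_zero 0) (hole_sub z hu), ix_eq hK h1 hu, h_eq hK h1 hu, h0,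
        ← hu', (M.zero _).2, h3, zero_add]
      rfl
    · have h3 : (ix Ω K h z).2 = true := by simp [ix, h0]
      refine ⟨h z, (hK.val z).resolve_left h0, ?_⟩
      filter_upwards [hn] with u hu
      have h4 : lev (0 + 1) (ix Ω K h z).2 = 0 := by rw [h3]; rfl
      rw [glg_zero, glg_of (Nat.add_one_ne_zero 0) (hole_sub z hu), ix_eq hK h1 hu, h_eq hK h1 hu, h4,
        (M.zero _).2, add_zero, sub_zero]
  · obtain ⟨t, ht, ht'⟩ := h2 _ (lev_succ hk _)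
    refine ⟨t, ht, ?_⟩
    filter_upwards [hn, ht'] with u hu hu'
    rw [glg_of (Nat.add_one_ne_zero k) (hole_sub z hu), glg_of hk (hole_sub z hu), ix_eq hK h1 hu,
      lev_succ hk, ← hu']
    ring

end glued

end Vale.Agent.P155.Tree.Glue
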